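import Mathlib

/-!
# Seymour's second neighbourhood conjecture (P038), helper519: the core inequality

`N v` is the closed out-neighbourhood of `v`, `cl N S` the closed out-neighbourhood of a set.
-/

namespace Vale.Agent.P038.H519

open Finset

variable {V : Type*} [Fintype V] [DecidableEq V]

/-- closed neighbourhood of a set -/
def cl (N : V → Finset V) (S : Finset V) : Finset V := S.biUnion N

omit [Fintype V] in
theorem mem_cl {N : V → Finset V} {S : Finset V} {z : V} : z ∈ cl N S ↔ ∃ y ∈ S, z ∈ N y :=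
  Finset.mem_biUnion

omit [Fintype V] in
theorem cl_mono {N : V → Finset V} {S T : Finset V} (h : S ⊆ T) : cl N S ⊆ cl N T := by
  intro z hz
  obtain ⟨y, hy, hzy⟩ := mem_cl.1 hz
  exact mem_cl.2 ⟨y, h hy, hzy⟩

omit [Fintype V] in
theorem subset_cl {N : V → Finset V} (hN : ∀ v, v ∈ N v) (S : Finset V) : S ⊆ cl N S := by
  intro z hz
  exact mem_cl.2 ⟨z, hz, hN z⟩

omit [Fintype V] in
/-- splitting a set according to the first index `s` with `a ∉ C s` -/
theorem hallSplit (N C : V → Finset V) (I : Finset V) : ∀ S : Finset V,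
    (∀ a ∈ S, ∃ s ∈ I, a ∉ C s) →
    (∀ s ∈ I, ∀ T ⊆ S, (∀ a ∈ T, a ∉ C s) → T.card ≤ (cl N T \ cl N (C s)).card) →
    ∃ W ⊆ cl N S, S.card ≤ W.card ∧ ∀ z ∈ W, ∃ s ∈ I, z ∉ cl N (C s) := by
  induction I using Finset.induction_on with
  | empty =>
    intro S h1 _
    have : S = ∅ := by
      rw [Finset.eq_empty_iff_forall_notMem]
      intro a ha
      obtain ⟨s, hs, _⟩ := h1 a ha
      simp at hs
    exact ⟨∅, empty_subset _, by simp [this], by simp⟩
  | insert s0 I hs0 ih =>
    intro S h1 h2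
    have hsplit : (S.filter (fun a => a ∉ C s0)).card + (S.filter (fun a => a ∈ C s0)).card
        = S.card := by
      have := Finset.card_filter_add_card_filter_not (s := S) (fun a => a ∈ C s0)
      omega
    have e1 := h2 s0 (mem_insert_self _ _) (S.filter (fun a => a ∉ C s0)) (filter_subset _ _)
      (fun a ha => (mem_filter.1 ha).2)
    obtain ⟨W, hW1, hW2, hW3⟩ := ih (S.filter (fun a => a ∈ C s0)) (by
      intro a ha
      obtain ⟨haS, haC⟩ := mem_filter.1 ha
      obtain ⟨s, hs, has⟩ := h1 a haS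
      rcases mem_insert.1 hs with rfl | hs
      · exact absurd haC has
      · exact ⟨s, hs, has⟩) (by
      intro s hs T hT hTs
      exact h2 s (mem_insert_of_mem hs) T (hT.trans (filter_subset _ _)) hTs)
    have hdisj : Disjoint (cl N (S.filter (fun a => a ∉ C s0)) \ cl N (C s0)) W := by
      rw [Finset.disjoint_left]
      intro z hz hz'
      refine (mem_sdiff.1 hz).2 ?_
      refine cl_mono ?_ (hW1 hz')
      intro a ha
      exact (mem_filter.1 ha).2
    refine ⟨(cl N (S.filter (fun a => a ∉ C s0)) \ cl N (C s0)) ∪ W, ?_, ?_, ?_⟩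
    · intro z hz
      rcases mem_union.1 hz with hz | hz
      · exact cl_mono (filter_subset _ _) (mem_sdiff.1 hz).1
      · exact cl_mono (filter_subset _ _) (hW1 hz)
    · rw [Finset.card_union_of_disjoint hdisj]
      omega
    · intro z hz
      rcases mem_union.1 hz with hz | hz
      · exact ⟨s0, mem_insert_self _ _, (mem_sdiff.1 hz).2⟩
      · obtain ⟨s, hs, hz2⟩ := hW3 z hz
        exact ⟨s, mem_insert_of_mem hs, hz2⟩

/-- the size of a maximum matching between `L` and `R` (in the form of König's formula) -/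
noncomputable def nu (N : V → Finset V) (L R : Finset V) : ℕ :=
  L.powerset.inf' ⟨∅, Finset.empty_mem_powerset _⟩ (fun S => (L \ S).card + (cl N S ∩ R).card)

omit [Fintype V] in
theorem nu_le {N : V → Finset V} {L R S : Finset V} (hS : S ⊆ L) :
    nu N L R ≤ (L \ S).card + (cl N S ∩ R).card :=
  Finset.inf'_le (fun S => (L \ S).card + (cl N S ∩ R).card) (mem_powerset.2 hS)

omit [Fintype V] in
theorem nu_exists (N : V → Finset V) (L R : Finset V) :
    ∃ S ⊆ L, nu N L R = (L \ S).card + (cl N S ∩ R).card := by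
  obtain ⟨S, hS, h⟩ := Finset.exists_mem_eq_inf' (s := L.powerset)
    ⟨∅, Finset.empty_mem_powerset _⟩ (fun S => (L \ S).card + (cl N S ∩ R).card)
  exact ⟨S, mem_powerset.1 hS, h⟩

omit [Fintype V] in
theorem card4 {A B C D : Finset V} (h1 : A ∪ B ⊆ C ∪ D) (h2 : A ∩ B ⊆ C ∩ D) :
    A.card + B.card ≤ C.card + D.card := by
  rw [← card_union_add_card_inter A B, ← card_union_add_card_inter C D]
  exact add_le_add (card_le_card h1) (card_le_card h2)

omit [Fintype V] in
theorem nu_mono {N : V → Finset V} {L M R R' : Finset V} {x : V} (hR : R' ⊆ R)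
    (h : ∀ y ∈ L, y ∉ M → ∀ z ∈ N y, z ∉ R' ∧ z ≠ x) :
    nu N L (insert x R) + nu N M R' ≤ nu N M (insert x R') + nu N L R := by
  classical
  obtain ⟨S, hSM, hS⟩ := nu_exists N M (insert x R')
  obtain ⟨T, hTL, hT⟩ := nu_exists N L R
  set T' := T.filter (fun y => y ∈ S ∨ y ∉ M) with hT'
  set S' := S ∪ (T ∩ M) with hS'
  have hT'L : T' ⊆ L := (filter_subset _ _).trans hTL
  have hS'M : S' ⊆ M := union_subset hSM inter_subset_right
  have b1 := nu_le (N := N) (L := L) (R := insert x R) hT'L
  have b2 := nu_le (N := N) (L := M) (R := R') hS'M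
  have c1 : (L \ T').card + T'.card = L.card := card_sdiff_add_card_eq_card hT'L
  have c2 : (M \ S').card + S'.card = M.card := card_sdiff_add_card_eq_card hS'M
  have c3 : (L \ T).card + T.card = L.card := card_sdiff_add_card_eq_card hTL
  have c4 : (M \ S).card + S.card = M.card := card_sdiff_add_card_eq_card hSM
  have c5 : T'.card + S'.card = T.card + S.card := by
    have d1 : T' ∪ S' = T ∪ S := by
      ext y
      simp only [hT', hS', mem_union, mem_filter, mem_inter]
      tauto
    have d2 : T' ∩ S' = T ∩ S := by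
      ext y
      simp only [hT', hS', mem_union, mem_filter, mem_inter]
      have : y ∈ S → y ∈ M := fun hy => hSM hy
      tauto
    rw [← card_union_add_card_inter, d1, d2, card_union_add_card_inter]
  have c6 : (cl N T' ∩ insert x R).card + (cl N S' ∩ R').card
      ≤ (cl N S ∩ insert x R').card + (cl N T ∩ R).card := by
    apply card4
    · intro v hv
      rcases mem_union.1 hv with hv | hv
      · obtain ⟨hv1, hv2⟩ := mem_inter.1 hv
        obtain ⟨y, hy, hvy⟩ := mem_cl.1 hv1
        obtain ⟨hyT, hy2⟩ := mem_filter.1 hy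
        rcases mem_insert.1 hv2 with rfl | hvR
        · rcases hy2 with hyS | hyM
          · exact mem_union_left _ (mem_inter.2 ⟨mem_cl.2 ⟨y, hyS, hvy⟩, mem_insert_self _ _⟩)
          · exact absurd rfl (h y (hTL hyT) hyM v hvy).2
        · exact mem_union_right _ (mem_inter.2 ⟨mem_cl.2 ⟨y, hyT, hvy⟩, hvR⟩)
      · obtain ⟨hv1, hv2⟩ := mem_inter.1 hv
        obtain ⟨y, hy, hvy⟩ := mem_cl.1 hv1
        rcases mem_union.1 hy with hyS | hyT
        · exact mem_union_left _ (mem_inter.2 ⟨mem_cl.2 ⟨y, hyS, hvy⟩, mem_insert_of_mem hv2⟩)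
        · exact mem_union_right _
            (mem_inter.2 ⟨mem_cl.2 ⟨y, (mem_inter.1 hyT).1, hvy⟩, hR hv2⟩)
    · intro v hv
      obtain ⟨hva, hvb⟩ := mem_inter.1 hv
      obtain ⟨hv1, _⟩ := mem_inter.1 hva
      obtain ⟨_, hv4⟩ := mem_inter.1 hvb
      obtain ⟨y, hy, hvy⟩ := mem_cl.1 hv1
      obtain ⟨hyT, hy2⟩ := mem_filter.1 hy
      rcases hy2 with hyS | hyM
      · exact mem_inter.2 ⟨mem_inter.2 ⟨mem_cl.2 ⟨y, hyS, hvy⟩, mem_insert_of_mem hv4⟩,
          mem_inter.2 ⟨mem_cl.2 ⟨y, hyT, hvy⟩, hR hv4⟩⟩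
      · exact absurd hv4 (h y (hTL hyT) hyM v hvy).1
  omega

omit [Fintype V] in
theorem nu_insert_le (N : V → Finset V) (L R : Finset V) (x : V) :
    nu N L (insert x R) ≤ nu N L R + 1 := by
  obtain ⟨S, hS, h⟩ := nu_exists N L R
  have h1 := nu_le (N := N) (L := L) (R := insert x R) hS
  have h2 : (cl N S ∩ insert x R).card ≤ (cl N S ∩ R).card + 1 := by
    refine (card_le_card (t := insert x (cl N S ∩ R)) ?_).trans (card_insert_le _ _)
    intro v hv
    obtain ⟨hv1, hv2⟩ := mem_inter.1 hv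
    rcases mem_insert.1 hv2 with rfl | hv2
    · exact mem_insert_self _ _
    · exact mem_insert_of_mem (mem_inter.2 ⟨hv1, hv2⟩)
  omega

omit [Fintype V] in
theorem nu_le_of_subset {N : V → Finset V} {L R R' : Finset V} (hR : R ⊆ R') :
    nu N L R ≤ nu N L R' := by
  obtain ⟨S, hS, h⟩ := nu_exists N L R'
  have h1 := nu_le (N := N) (L := L) (R := R) hS
  have h2 : (cl N S ∩ R).card ≤ (cl N S ∩ R').card :=
    card_le_card (inter_subset_inter_left hR)
  omega

omit [Fintype V] in
theorem nu_insert_eq {N : V → Finset V} {L R : Finset V} {x : V} (hx : ∀ y ∈ L, x ∉ N y) :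
    nu N L (insert x R) ≤ nu N L R := by
  obtain ⟨S, hS, h⟩ := nu_exists N L R
  have h1 := nu_le (N := N) (L := L) (R := insert x R) hS
  have h2 : (cl N S ∩ insert x R).card ≤ (cl N S ∩ R).card := by
    apply card_le_card
    intro v hv
    obtain ⟨hv1, hv2⟩ := mem_inter.1 hv
    rcases mem_insert.1 hv2 with rfl | hv2
    · obtain ⟨y, hy, hvy⟩ := mem_cl.1 hv1
      exact absurd hvy (hx y (hS hy))
    · exact mem_inter.2 ⟨hv1, hv2⟩
  omega

/-- vertices with number `< i` -/
noncomputable def pre (V : Type*) [Fintype V] [DecidableEq V] (i : ℕ) : Finset V :=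
  univ.filter (fun v => ((Fintype.equivFin V v : Fin _) : ℕ) < i)

theorem pre_succ (x : V) :
    pre V ((Fintype.equivFin V x : ℕ) + 1) = insert x (pre V (Fintype.equivFin V x : ℕ)) := by
  ext v
  simp only [pre, mem_filter, mem_univ, true_and, mem_insert]
  constructor
  · intro h
    rcases Nat.lt_succ_iff_lt_or_eq.1 h with h | h
    · exact Or.inr h
    · left
      exact (Fintype.equivFin V).injective (Fin.ext h)
  · rintro (rfl | h)
    · exact Nat.lt_succ_self _
    · exact Nat.lt_succ_of_lt h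

theorem pre_zero : pre V 0 = ∅ := by
  simp [pre]

theorem pre_card : pre V (Fintype.card V) = univ := by
  ext v
  simp [pre]

/-- the greedily matched elements -/
noncomputable def TT (N : V → Finset V) (L F : Finset V) : Finset V :=
  univ.filter (fun x => nu N L (pre V (Fintype.equivFin V x : ℕ) \ F)
    < nu N L (pre V ((Fintype.equivFin V x : ℕ) + 1) \ F))

theorem pre_succ_sdiff_of_mem {x : V} {F : Finset V} (hx : x ∈ F) :
    pre V ((Fintype.equivFin V x : ℕ) + 1) \ F = pre V (Fintype.equivFin V x : ℕ) \ F := by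
  rw [pre_succ, insert_sdiff_of_mem _ hx]

theorem pre_succ_sdiff_of_notMem {x : V} {F : Finset V} (hx : x ∉ F) :
    pre V ((Fintype.equivFin V x : ℕ) + 1) \ F
      = insert x (pre V (Fintype.equivFin V x : ℕ) \ F) := by
  rw [pre_succ, insert_sdiff_of_notMem _ hx]

theorem card_TT (N : V → Finset V) (L F : Finset V) :
    (TT N L F).card = nu N L (univ \ F) := by
  have h1 : ((TT N L F).card : ℤ) = ∑ x : V, ((nu N L (pre V ((Fintype.equivFin V x : ℕ) + 1) \ F)
      : ℤ) - nu N L (pre V (Fintype.equivFin V x : ℕ) \ F)) := by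
    rw [TT, card_filter]
    push_cast
    apply sum_congr rfl
    intro x _
    have a1 : nu N L (pre V (Fintype.equivFin V x : ℕ) \ F)
        ≤ nu N L (pre V ((Fintype.equivFin V x : ℕ) + 1) \ F) := by
      apply nu_le_of_subset
      rw [pre_succ]
      exact sdiff_subset_sdiff (subset_insert _ _) le_rfl
    have a2 : nu N L (pre V ((Fintype.equivFin V x : ℕ) + 1) \ F)
        ≤ nu N L (pre V (Fintype.equivFin V x : ℕ) \ F) + 1 := by
      by_cases hx : x ∈ F
      · rw [pre_succ_sdiff_of_mem hx]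
        omega
      · rw [pre_succ_sdiff_of_notMem hx]
        exact nu_insert_le _ _ _ _
    split_ifs with hlt <;> omega
  have h2 : ∑ x : V, ((nu N L (pre V ((Fintype.equivFin V x : ℕ) + 1) \ F)
      : ℤ) - nu N L (pre V (Fintype.equivFin V x : ℕ) \ F))
      = nu N L (pre V (Fintype.card V) \ F) - nu N L (pre V 0 \ F) := by
    rw [← Finset.sum_range_sub (fun i => (nu N L (pre V i \ F) : ℤ)) (Fintype.card V)]
    rw [← Fin.sum_univ_eq_sum_range
      (fun i => (nu N L (pre V (i + 1) \ F) : ℤ) - nu N L (pre V i \ F)) (Fintype.card V)]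
    exact Equiv.sum_comp (Fintype.equivFin V)
      (fun i : Fin (Fintype.card V) =>
        (nu N L (pre V ((i : ℕ) + 1) \ F) : ℤ) - nu N L (pre V (i : ℕ) \ F))
  have h3 : nu N L (pre V 0 \ F) = 0 := by
    have := nu_le (N := N) (L := L) (R := pre V 0 \ F) (S := L) le_rfl
    rw [pre_zero] at this ⊢
    simpa using this
  rw [h2, h3, pre_card] at h1
  have : ((TT N L F).card : ℤ) = (nu N L (univ \ F) : ℤ) := by simpa using h1
  exact_mod_cast this

theorem TT_mem {N : V → Finset V} {L F : Finset V} {x : V} (hx : x ∈ TT N L F) :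
    x ∉ F ∧ ∃ y ∈ L, x ∈ N y := by
  rw [TT, mem_filter] at hx
  have hF : x ∉ F := by
    intro h
    rw [pre_succ_sdiff_of_mem h] at hx
    exact lt_irrefl _ hx.2
  refine ⟨hF, ?_⟩
  by_contra hcon
  push Not at hcon
  rw [pre_succ_sdiff_of_notMem hF] at hx
  exact absurd (nu_insert_eq hcon) (not_le.2 hx.2)

theorem TT_mono {N : V → Finset V} {L M F F' : Finset V} {x : V} (hx : x ∈ TT N L F)
    (hF : F ⊆ F') (hxF' : x ∉ F') (h : ∀ y ∈ L, y ∉ M → ∀ z ∈ N y, z ∈ F') :
    x ∈ TT N M F' := by
  rw [TT, mem_filter] at hx ⊢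
  refine ⟨mem_univ _, ?_⟩
  have hxF : x ∉ F := fun h => hxF' (hF h)
  have hx2 := hx.2
  rw [pre_succ_sdiff_of_notMem hxF] at hx2
  rw [pre_succ_sdiff_of_notMem hxF']
  have hsub : pre V (Fintype.equivFin V x : ℕ) \ F' ⊆ pre V (Fintype.equivFin V x : ℕ) \ F :=
    sdiff_subset_sdiff le_rfl hF
  have := nu_mono (N := N) (L := L) (M := M) (x := x) hsub (by
    intro y hy hyM z hz
    have hzF := h y hy hyM z hz
    refine ⟨fun h3 => (mem_sdiff.1 h3).2 hzF, ?_⟩
    rintro rfl
    exact hxF' hzF)
  omega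

theorem card_TT_le (N : V → Finset V) (L F : Finset V) : (TT N L F).card ≤ L.card := by
  rw [card_TT]
  have := nu_le (N := N) (L := L) (R := univ \ F) (S := ∅) (empty_subset _)
  simpa [cl] using this

theorem le_card_TT {N : V → Finset V} {L F : Finset V}
    (h : ∀ S ⊆ L, S.card ≤ (cl N S \ F).card) : L.card ≤ (TT N L F).card := by
  rw [card_TT]
  obtain ⟨S, hS, e⟩ := nu_exists N L (univ \ F)
  have h1 := h S hS
  have h2 : cl N S ∩ (univ \ F) = cl N S \ F := by
    ext v
    simp
  have h3 : (L \ S).card + S.card = L.card := card_sdiff_add_card_eq_card hS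
  rw [e, h2]
  omega

/-- double counting -/
theorem swap (U : V → Finset V) :
    ∑ x, (univ.filter (fun a => x ∈ U a)).card = ∑ a, (U a).card := by
  have h : ∀ a, (U a).card = ∑ x, if x ∈ U a then 1 else 0 := by
    intro a
    rw [← card_filter]
    congr 1
    ext v
    simp
  simp only [card_filter, h]
  exact sum_comm

/-- complement count -/
theorem count4 (U W : V → Finset V) (h : ∀ a x, x ∈ U a → a ∈ W x → a = x)
    (hU : ∀ a, a ∈ U a) (hW : ∀ a, a ∈ W a) :
    ∑ a, (univ.filter (fun x => x ∉ U a ∧ a ∉ W x)).card + ∑ a, (U a).card + ∑ x, (W x).card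
      = Fintype.card V * (Fintype.card V + 1) := by
  rw [← swap W, ← sum_add_distrib, ← sum_add_distrib]
  have : ∀ a, (univ.filter (fun x => x ∉ U a ∧ a ∉ W x)).card + (U a).card
      + (univ.filter (fun x => a ∈ W x)).card = Fintype.card V + 1 := by
    intro a
    have e1 : U a ∩ univ.filter (fun x => a ∈ W x) = {a} := by
      ext x
      simp only [mem_inter, mem_filter, mem_univ, true_and, mem_singleton]
      constructor
      · rintro ⟨h1, h2⟩
        exact (h a x h1 h2).symm
      · rintro rfl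
        exact ⟨hU _, hW _⟩
    have e2 := card_union_add_card_inter (U a) (univ.filter (fun x => a ∈ W x))
    rw [e1, card_singleton] at e2
    have e3 : univ.filter (fun x => x ∉ U a ∧ a ∉ W x)
        = (U a ∪ univ.filter (fun x => a ∈ W x))ᶜ := by
      ext x
      simp
    have e4 := card_compl_add_card (U a ∪ univ.filter (fun x => a ∈ W x))
    rw [← e3] at e4
    omega
  rw [sum_congr rfl (fun a _ => this a)]
  simp

section LK

variable {N : V → Finset V} (hN : ∀ v, v ∈ N v) {B C X Y : V → Finset V}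
  (H1 : ∀ a (S : Finset V), (∀ x ∈ S, x ∉ B a ∧ a ∉ C x) → S.card ≤ (cl N S \ cl N (B a)).card)
  (H2 : ∀ x (S : Finset V), (∀ a ∈ S, x ∉ B a ∧ a ∉ C x) → S.card ≤ (cl N S \ cl N (C x)).card)
  (hX : ∀ a x, x ∈ X a ↔ ∀ s, a ∈ N s → x ∈ B s)
  (hY : ∀ a x, x ∈ Y a ↔ ∀ s, a ∈ N s → x ∈ C s)

include H1 H2 hX hY in
/-- the inequality `|R| + |L| ≤ |M| + |Z|` -/
theorem core :
    ∑ a, (univ.filter (fun x => x ∉ cl N (B a) ∧ a ∉ Y x)).card
      + ∑ a, (univ.filter (fun x => x ∉ X a ∧ a ∉ cl N (C x))).card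
      ≤ ∑ a, (univ.filter (fun x => x ∉ B a ∧ a ∉ C x)).card
      + ∑ a, (univ.filter (fun x => x ∉ cl N (X a) ∧ a ∉ cl N (Y x))).card := by
  set Mr : V → Finset V := fun a => univ.filter (fun x => x ∉ B a ∧ a ∉ C x) with hMr
  set Lr : V → Finset V := fun a => univ.filter (fun x => x ∉ X a ∧ a ∉ cl N (C x)) with hLr
  set Rr : V → Finset V := fun a => univ.filter (fun x => x ∉ cl N (B a) ∧ a ∉ Y x) with hRr
  set Zr : V → Finset V := fun a => univ.filter (fun x => x ∉ cl N (X a) ∧ a ∉ cl N (Y x))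
    with hZr
  set T : V → Finset V := fun a => TT N (Mr a) (cl N (B a)) with hT
  set T' : V → Finset V := fun a => TT N (Lr a) (cl N (X a)) with hT'
  -- Hall for the rows of `L`
  have hallL : ∀ a, ∀ S ⊆ Lr a, S.card ≤ (cl N S \ cl N (X a)).card := by
    intro a S hS
    obtain ⟨W, hW1, hW2, hW3⟩ := hallSplit N B (univ.filter (fun s => a ∈ N s)) S (by
      intro y hy
      have hy' := hS hy
      simp only [hLr, mem_filter, mem_univ, true_and] at hy'
      have h1 := hy'.1
      rw [hX] at h1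
      push Not at h1
      obtain ⟨s, hs, hys⟩ := h1
      exact ⟨s, mem_filter.2 ⟨mem_univ _, hs⟩, hys⟩) (by
      intro s hs U hU hUs
      apply H1
      intro y hy
      refine ⟨hUs y hy, fun hsC => ?_⟩
      have hy' := hS (hU hy)
      simp only [hLr, mem_filter, mem_univ, true_and] at hy'
      exact hy'.2 (mem_cl.2 ⟨s, hsC, (mem_filter.1 hs).2⟩))
    refine hW2.trans (card_le_card ?_)
    intro z hz
    obtain ⟨s, hs, hz2⟩ := hW3 z hz
    refine mem_sdiff.2 ⟨hW1 hz, fun h3 => hz2 ?_⟩
    refine cl_mono ?_ h3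
    intro y hy
    exact (hX a y).1 hy s (mem_filter.1 hs).2
  have cardT' : ∑ a, (Lr a).card ≤ ∑ a, (T' a).card :=
    sum_le_sum fun a _ => le_card_TT (hallL a)
  have cardT : ∑ a, (T a).card ≤ ∑ a, (Mr a).card :=
    sum_le_sum fun a _ => card_TT_le _ _ _
  -- column inequality
  have hcol : ∀ x, (univ.filter (fun a => x ∈ Rr a)).card + (univ.filter (fun a => x ∈ T' a)).card
      ≤ (univ.filter (fun a => x ∈ T a)).card + (univ.filter (fun a => x ∈ Zr a)).card := by
    intro x
    set K := univ.filter (fun a => x ∈ Rr a ∧ x ∉ T a) with hK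
    have k1 : (univ.filter (fun a => x ∈ Rr a)).card
        ≤ (univ.filter (fun a => x ∈ T a)).card + K.card := by
      refine (card_le_card (t := univ.filter (fun a => x ∈ T a) ∪ K) ?_).trans (card_union_le _ _)
      intro a ha
      have ha' := (mem_filter.1 ha).2
      by_cases hxT : x ∈ T a
      · exact mem_union_left _ (mem_filter.2 ⟨mem_univ _, hxT⟩)
      · exact mem_union_right _ (mem_filter.2 ⟨mem_univ _, ha', hxT⟩)
    have k2 : ∃ W ⊆ cl N K, K.card ≤ W.card ∧
        ∀ z ∈ W, ∃ s ∈ univ.filter (fun s => x ∈ N s), z ∉ cl N (C s) := by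
      apply hallSplit N C (univ.filter (fun s => x ∈ N s)) K
      · intro a ha
        have ha' := (mem_filter.1 ha).2.1
        simp only [hRr, mem_filter, mem_univ, true_and] at ha'
        have h1 := ha'.2
        rw [hY] at h1
        push Not at h1
        obtain ⟨s, hs, hys⟩ := h1
        exact ⟨s, mem_filter.2 ⟨mem_univ _, hs⟩, hys⟩
      · intro s hs U hU hUs
        apply H2
        intro a ha
        refine ⟨fun hsB => ?_, hUs a ha⟩
        have ha' := (mem_filter.1 (hU ha)).2.1
        simp only [hRr, mem_filter, mem_univ, true_and] at ha'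
        exact ha'.1 (mem_cl.2 ⟨s, hsB, (mem_filter.1 hs).2⟩)
    obtain ⟨W, hW1, hW2, hW3⟩ := k2
    have k3 : Disjoint W (univ.filter (fun a => x ∈ T' a)) := by
      rw [disjoint_left]
      intro z hz hz'
      obtain ⟨a, ha, hza⟩ := mem_cl.1 (hW1 hz)
      have hxT' : x ∈ T' z := (mem_filter.1 hz').2
      obtain ⟨_, haR, haT⟩ := mem_filter.1 ha
      simp only [hRr, mem_filter, mem_univ, true_and] at haR
      apply haT
      refine TT_mono hxT' ?_ haR.1 ?_
      · apply cl_mono
        intro y hy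
        exact (hX z y).1 hy a hza
      · intro y hy hyM v hv
        simp only [hLr, mem_filter, mem_univ, true_and] at hy
        simp only [hMr, mem_filter, mem_univ, true_and] at hyM
        have hyB : y ∈ B a := by
          by_contra hyB
          apply hyM
          refine ⟨hyB, fun haC => ?_⟩
          exact hy.2 (mem_cl.2 ⟨a, haC, hza⟩)
        exact mem_cl.2 ⟨y, hyB, hv⟩
    have k4 : W ∪ (univ.filter (fun a => x ∈ T' a)) ⊆ univ.filter (fun a => x ∈ Zr a) := by
      intro z hz
      refine mem_filter.2 ⟨mem_univ _, ?_⟩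
      simp only [hZr, mem_filter, mem_univ, true_and]
      rcases mem_union.1 hz with hz | hz
      · obtain ⟨s, hs, hz2⟩ := hW3 z hz
        obtain ⟨a, ha, hza⟩ := mem_cl.1 (hW1 hz)
        obtain ⟨_, haR, _⟩ := mem_filter.1 ha
        simp only [hRr, mem_filter, mem_univ, true_and] at haR
        constructor
        · intro h3
          refine haR.1 (cl_mono ?_ h3)
          intro y hy
          exact (hX z y).1 hy a hza
        · intro h3
          refine hz2 (cl_mono ?_ h3)
          intro y hy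
          exact (hY x y).1 hy s (mem_filter.1 hs).2
      · have hxT' : x ∈ T' z := (mem_filter.1 hz).2
        obtain ⟨h1, y, hy, hxy⟩ := TT_mem hxT'
        refine ⟨h1, fun h3 => ?_⟩
        simp only [hLr, mem_filter, mem_univ, true_and] at hy
        refine hy.2 (cl_mono ?_ h3)
        intro u hu
        exact (hY x u).1 hu y hxy
    have k5 := card_le_card k4
    rw [card_union_of_disjoint k3] at k5
    omega
  have hsum := sum_le_sum (s := (univ : Finset V)) fun x _ => hcol x
  rw [sum_add_distrib, sum_add_distrib, swap Rr, swap T', swap T, swap Zr] at hsum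
  have hfin : ∑ a, (Rr a).card + ∑ a, (Lr a).card ≤ ∑ a, (Mr a).card + ∑ a, (Zr a).card := by
    omega
  exact hfin

include hN H1 H2 hX hY in
/-- `k(X) + k(Y) ≤ k(B) + k(C)` -/
theorem LK (hB : ∀ a, N a ⊆ B a) (hC : ∀ a, N a ⊆ C a)
    (hBC : ∀ a x, x ∈ B a → a ∈ C x → a = x) :
    ∑ a, (cl N (X a) \ X a).card + ∑ a, (cl N (Y a) \ Y a).card
      ≤ ∑ a, (cl N (B a) \ B a).card + ∑ a, (cl N (C a) \ C a).card := by
  have hXB : ∀ a x, x ∈ X a → x ∈ B a := fun a x hx => (hX a x).1 hx a (hN a)
  have hYC : ∀ a x, x ∈ Y a → x ∈ C a := fun a x hx => (hY a x).1 hx a (hN a)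
  have hXr : ∀ a, a ∈ X a := fun a => (hX a a).2 fun s hs => hB s hs
  have hYr : ∀ a, a ∈ Y a := fun a => (hY a a).2 fun s hs => hC s hs
  have hBr : ∀ a, a ∈ B a := fun a => hB a (hN a)
  have hCr : ∀ a, a ∈ C a := fun a => hC a (hN a)
  have e : ∀ U : V → Finset V, ∑ a, (cl N (U a) \ U a).card + ∑ a, (U a).card
      = ∑ a, (cl N (U a)).card := by
    intro U
    rw [← sum_add_distrib]
    exact sum_congr rfl fun a _ => card_sdiff_add_card_eq_card (subset_cl hN _)
  have cM := count4 B C hBC hBr hCr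
  have cR := count4 (fun a => cl N (B a)) Y (by
    intro a x hx ha
    obtain ⟨z, hz, hxz⟩ := mem_cl.1 hx
    have h1 := hBC a z hz ((hY x a).1 ha z hxz)
    subst h1
    exact hBC a x (hB a hxz) (hYC x a ha)) (fun a => subset_cl hN _ (hBr a)) hYr
  have cL := count4 X (fun a => cl N (C a)) (by
    intro a x hx ha
    obtain ⟨z, hz, haz⟩ := mem_cl.1 ha
    have h1 := hBC z x ((hX a x).1 hx z haz) hz
    subst h1
    exact hBC a z (hXB a z hx) (hC z haz)) hXr (fun a => subset_cl hN _ (hCr a))
  have cZ := count4 (fun a => cl N (X a)) (fun a => cl N (Y a)) (by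
    intro a b hb ha
    obtain ⟨x, hx, hbx⟩ := mem_cl.1 hb
    obtain ⟨y, hy, hay⟩ := mem_cl.1 ha
    have h1 := hBC y x ((hX a x).1 hx y hay) ((hY b y).1 hy x hbx)
    subst h1
    have h2 := hBC a y (hXB a y hx) (hC y hay)
    have h3 := hBC y b (hB y hbx) (hYC b y hy)
    exact h2.trans h3) (fun a => subset_cl hN _ (hXr a)) (fun a => subset_cl hN _ (hYr a))
  have hc := core H1 H2 hX hY
  have eB := e B
  have eC := e C
  have eX := e X
  have eY := e Y
  generalize Fintype.card V * (Fintype.card V + 1) = n2 at cM cR cL cZ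
  omega

end LK

end Vale.Agent.P038.H519
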