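import Vale.Agent.P038.H519.Core

/-!
# P038, helper519: the inequality (G) for an arc-minimal counterexample (proof of helper294)
-/

namespace Vale.Agent.P038.H519

open Finset

variable {V : Type*} [Fintype V] [DecidableEq V]

/-- second neighbourhood of `v` for the out-neighbour function `out` -/
def n2 (out : V → Finset V) (v : V) : Finset V :=
  univ.filter (fun x => x ≠ v ∧ x ∉ out v ∧ ∃ u ∈ out v, x ∈ out u)

/-- closed neighbourhood function -/
def nb (out : V → Finset V) (v : V) : Finset V := insert v (out v)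

/-- counterexample -/
structure CE (out : V → Finset V) : Prop where
  irr : ∀ v, v ∉ out v
  asy : ∀ u v, v ∈ out u → u ∉ out v
  bad : ∀ v, (n2 out v).card < (out v).card

/-- arc-minimal counterexample -/
structure CEm (out : V → Finset V) : Prop extends CE out where
  mini : ∀ out' : V → Finset V, CE out' → ∑ v, (out v).card ≤ ∑ v, (out' v).card

theorem exists_CEm {out : V → Finset V} (h : CE out) : ∃ o : V → Finset V, CEm o := by
  classical
  obtain ⟨o, ho, hmin⟩ := Finset.exists_min_image
    (univ.filter (fun o : V → Finset V => CE o)) (fun o => ∑ v, (o v).card)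
    ⟨out, by simpa using h⟩
  refine ⟨o, ⟨(mem_filter.1 ho).2, fun out' h' => ?_⟩⟩
  exact hmin out' (by simpa using h')

theorem G {out : V → Finset V} (h : CEm out) (X : Finset V)
    (hX : ¬ cl (nb out) X ⊆ X) :
    (cl (nb out) (cl (nb out) X) \ cl (nb out) X).card < (cl (nb out) X \ X).card := by
  have hnb : ∀ v, v ∈ nb out v := fun v => mem_insert_self _ _
  by_contra hcon
  push Not at hcon
  set N := nb out with hNdef
  set L := cl N X \ X with hL
  have hLne : L.Nonempty := by
    rw [not_subset] at hX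
    obtain ⟨z, hz, hzX⟩ := hX
    exact ⟨z, mem_sdiff.2 ⟨hz, hzX⟩⟩
  set d : Finset V → ℤ := fun T => ((cl N T \ X).card : ℤ) - 2 * T.card with hd
  have hdL : 0 ≤ d L := by
    have h1 : Disjoint L (cl N (cl N X) \ cl N X) := by
      rw [disjoint_left]
      intro z hz hz'
      exact (mem_sdiff.1 hz').2 (mem_sdiff.1 hz).1
    have h2 : L ∪ (cl N (cl N X) \ cl N X) ⊆ cl N L \ X := by
      intro z hz
      rcases mem_union.1 hz with hz | hz
      · exact mem_sdiff.2 ⟨subset_cl hnb L hz, (mem_sdiff.1 hz).2⟩
      · obtain ⟨hz1, hz2⟩ := mem_sdiff.1 hz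
        obtain ⟨y, hy, hzy⟩ := mem_cl.1 hz1
        refine mem_sdiff.2 ⟨mem_cl.2 ⟨y, mem_sdiff.2 ⟨hy, fun hyX => ?_⟩, hzy⟩,
          fun hzX => hz2 (subset_cl hnb X hzX)⟩
        exact hz2 (mem_cl.2 ⟨y, hyX, hzy⟩)
    have h3 := card_le_card h2
    rw [card_union_of_disjoint h1] at h3
    simp only [hd]
    omega
  have hd0 : d ∅ = 0 := by simp [hd, cl]
  obtain ⟨T, hT, hTmin⟩ := Finset.exists_min_image L.ssubsets d
    ⟨∅, by rw [mem_ssubsets]; exact hLne.empty_ssubset⟩
  rw [mem_ssubsets] at hT
  have hTL : T ⊆ L := hT.1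
  have hmin : ∀ S ⊆ L, d T ≤ d S := by
    intro S hS
    by_cases hSL : S = L
    · subst hSL
      have := hTmin ∅ (by rw [mem_ssubsets]; exact hLne.empty_ssubset)
      omega
    · exact hTmin S (by rw [mem_ssubsets]; exact hS.ssubset_of_ne hSL)
  set Z := L \ T with hZ
  set out' : V → Finset V := fun y => if y ∈ X then out y \ Z else out y with hout'
  have hsub : ∀ v, out' v ⊆ out v := by
    intro v
    simp only [hout']
    split_ifs
    · exact sdiff_subset
    · exact subset_rfl
  have hCE : CE out' := by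
    refine ⟨fun v hv => h.irr v (hsub v hv), fun u v huv hvu => h.asy u v (hsub u huv)
      (hsub v hvu), ?_⟩
    intro v
    by_cases hv : v ∈ X
    · have ho : out' v = out v \ Z := by simp only [hout', if_pos hv]
      set Dv := out v ∩ Z with hDv
      set Ev := cl N Dv \ (cl N T ∪ X) with hEv
      have hEsub : Ev ⊆ n2 out v ∪ Dv := by
        intro z hz
        obtain ⟨hz1, hz2⟩ := mem_sdiff.1 hz
        have hzX : z ∉ X := fun h3 => hz2 (mem_union_right _ h3)
        have hzT : z ∉ cl N T := fun h3 => hz2 (mem_union_left _ h3)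
        obtain ⟨c, hc, hcz⟩ := mem_cl.1 hz1
        by_cases hvz : z ∈ out v
        · refine mem_union_right _ (mem_inter.2 ⟨hvz, ?_⟩)
          refine mem_sdiff.2 ⟨?_, fun h3 => hzT (subset_cl hnb T h3)⟩
          exact mem_sdiff.2 ⟨mem_cl.2 ⟨v, hv, mem_insert_of_mem hvz⟩, hzX⟩
        · rcases mem_insert.1 hcz with rfl | hcz
          · exact mem_union_right _ hc
          · refine mem_union_left _ (mem_filter.2 ⟨mem_univ _, ?_, hvz, c,
              (mem_inter.1 hc).1, hcz⟩)
            rintro rfl
            exact hzX hv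
      have hN2 : n2 out' v ⊆ (n2 out v ∪ Dv) \ Ev := by
        intro z hz
        obtain ⟨_, hzv, hnz, c, hvc, hcz⟩ := mem_filter.1 hz
        have hvc0 := hsub v hvc
        have hcz0 := hsub c hcz
        rw [ho] at hvc hnz
        refine mem_sdiff.2 ⟨?_, ?_⟩
        · by_cases hvz : z ∈ out v
          · refine mem_union_right _ (mem_inter.2 ⟨hvz, ?_⟩)
            by_contra hzZ
            exact hnz (mem_sdiff.2 ⟨hvz, hzZ⟩)
          · exact mem_union_left _ (mem_filter.2 ⟨mem_univ _, hzv, hvz, c, hvc0, hcz0⟩)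
        · intro hzE
          obtain ⟨_, hz2⟩ := mem_sdiff.1 hzE
          have hzX : z ∉ X := fun h3 => hz2 (mem_union_right _ h3)
          have hzT : z ∉ cl N T := fun h3 => hz2 (mem_union_left _ h3)
          by_cases hcX : c ∈ X
          · have hzL : z ∈ L :=
              mem_sdiff.2 ⟨mem_cl.2 ⟨c, hcX, mem_insert_of_mem hcz0⟩, hzX⟩
            have hzZ : z ∈ Z := mem_sdiff.2 ⟨hzL, fun h3 => hzT (subset_cl hnb T h3)⟩
            have : out' c = out c \ Z := by simp only [hout', if_pos hcX]
            rw [this] at hcz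
            exact (mem_sdiff.1 hcz).2 hzZ
          · have hcL : c ∈ L :=
              mem_sdiff.2 ⟨mem_cl.2 ⟨v, hv, mem_insert_of_mem hvc0⟩, hcX⟩
            have hcT : c ∈ T := by
              by_contra hcT
              exact (mem_sdiff.1 hvc).2 (mem_sdiff.2 ⟨hcL, hcT⟩)
            exact hzT (mem_cl.2 ⟨c, hcT, mem_insert_of_mem hcz0⟩)
      have hEcard : 2 * Dv.card ≤ Ev.card := by
        have h1 := hmin (T ∪ Dv) (union_subset hTL (inter_subset_right.trans sdiff_subset))
        have h2 : Disjoint T Dv := by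
          rw [disjoint_left]
          intro z hz hz'
          exact (mem_sdiff.1 (mem_inter.1 hz').2).2 hz
        have h3 : cl N (T ∪ Dv) \ X ⊆ (cl N T \ X) ∪ Ev := by
          intro z hz
          obtain ⟨hz1, hz2⟩ := mem_sdiff.1 hz
          by_cases hzT : z ∈ cl N T
          · exact mem_union_left _ (mem_sdiff.2 ⟨hzT, hz2⟩)
          · refine mem_union_right _ (mem_sdiff.2 ⟨?_, ?_⟩)
            · obtain ⟨y, hy, hzy⟩ := mem_cl.1 hz1
              rcases mem_union.1 hy with hy | hy
              · exact absurd (mem_cl.2 ⟨y, hy, hzy⟩) hzT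
              · exact mem_cl.2 ⟨y, hy, hzy⟩
            · intro h4
              rcases mem_union.1 h4 with h4 | h4
              · exact hzT h4
              · exact hz2 h4
        have h4 := (card_le_card h3).trans (card_union_le _ _)
        simp only [hd] at h1
        rw [card_union_of_disjoint h2] at h1
        push_cast at h1
        omega
      have c1 := card_le_card hN2
      have c2 : ((n2 out v ∪ Dv) \ Ev).card + Ev.card = (n2 out v ∪ Dv).card :=
        card_sdiff_add_card_eq_card hEsub
      have c3 := card_union_le (n2 out v) Dv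
      have c4 : (out' v).card + Dv.card = (out v).card := by
        rw [ho, hDv]
        have := card_sdiff_add_card_inter (out v) Z
        omega
      have c5 := h.bad v
      omega
    · have ho : out' v = out v := by simp only [hout', if_neg hv]
      rw [ho]
      refine lt_of_le_of_lt (card_le_card ?_) (h.bad v)
      intro z hz
      obtain ⟨_, hzv, hnz, c, hvc, hcz⟩ := mem_filter.1 hz
      rw [ho] at hnz hvc
      exact mem_filter.2 ⟨mem_univ _, hzv, hnz, c, hvc, hsub c hcz⟩
  have hle := h.mini out' hCE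
  have hlt : ∑ v, (out' v).card < ∑ v, (out v).card := by
    obtain ⟨z, hzL, hzT⟩ := exists_of_ssubset hT
    obtain ⟨hz1, hzX⟩ := mem_sdiff.1 hzL
    obtain ⟨y, hy, hzy⟩ := mem_cl.1 hz1
    have hzy' : z ∈ out y := by
      rcases mem_insert.1 hzy with rfl | hzy
      · exact absurd hy hzX
      · exact hzy
    refine sum_lt_sum (fun v _ => card_le_card (hsub v)) ⟨y, mem_univ _, ?_⟩
    apply card_lt_card
    refine ⟨hsub y, fun h3 => ?_⟩
    have h4 := h3 hzy'
    have : out' y = out y \ Z := by simp only [hout', if_pos hy]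
    rw [this] at h4
    exact (mem_sdiff.1 h4).2 (mem_sdiff.2 ⟨hzL, hzT⟩)
  omega

/-- compatible pair of families -/
structure Comp (N B C : V → Finset V) : Prop where
  cB : ∀ a, N a ⊆ B a
  cC : ∀ a, N a ⊆ C a
  cBC : ∀ a x, x ∈ B a → a ∈ C x → a = x

/-- the energy -/
def kk (N B : V → Finset V) : ℕ := ∑ a, (cl N (B a) \ B a).card

theorem kk_update (N B : V → Finset V) (a : V) (S : Finset V) :
    kk N (Function.update B a S) + (cl N (B a) \ B a).card = kk N B + (cl N S \ S).card := by
  unfold kk
  rw [← Finset.add_sum_erase univ (fun b => (cl N (Function.update B a S b) \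
      Function.update B a S b).card) (mem_univ a),
    ← Finset.add_sum_erase univ (fun b => (cl N (B b) \ B b).card) (mem_univ a)]
  have : ∑ x ∈ univ.erase a, (cl N (Function.update B a S x) \ Function.update B a S x).card
      = ∑ x ∈ univ.erase a, (cl N (B x) \ B x).card := by
    apply sum_congr rfl
    intro x hx
    rw [Function.update_of_ne (ne_of_mem_erase hx)]
  rw [this]
  simp only [Function.update_self]
  omega

omit [Fintype V] in
theorem growth {N : V → Finset V} (hN : ∀ v, v ∈ N v) {S O : Finset V} (hSO : Disjoint O S)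
    (h : (cl N S \ S).card ≤ (cl N (S ∪ O) \ (S ∪ O)).card) :
    O.card ≤ (cl N O \ cl N S).card := by
  have e1 : (cl N S \ S).card + S.card = (cl N S).card :=
    card_sdiff_add_card_eq_card (subset_cl hN _)
  have e2 : (cl N (S ∪ O) \ (S ∪ O)).card + (S ∪ O).card = (cl N (S ∪ O)).card :=
    card_sdiff_add_card_eq_card (subset_cl hN _)
  rw [card_union_of_disjoint hSO.symm] at e2
  have e3 : cl N (S ∪ O) ⊆ cl N S ∪ (cl N O \ cl N S) := by
    intro z hz
    obtain ⟨y, hy, hzy⟩ := mem_cl.1 hz
    rcases mem_union.1 hy with hy | hy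
    · exact mem_union_left _ (mem_cl.2 ⟨y, hy, hzy⟩)
    · by_cases hz' : z ∈ cl N S
      · exact mem_union_left _ hz'
      · exact mem_union_right _ (mem_sdiff.2 ⟨mem_cl.2 ⟨y, hy, hzy⟩, hz'⟩)
  have e4 := (card_le_card e3).trans (card_union_le _ _)
  omega

theorem no_CEm [Nonempty V] {out : V → Finset V} (h : CEm out) : False := by
  classical
  set N := nb out with hNdef
  have hN : ∀ v, v ∈ N v := fun v => mem_insert_self _ _
  have hasy : ∀ a b, b ∈ N a → a ∈ N b → a = b := by
    intro a b hb ha
    rcases mem_insert.1 hb with rfl | hb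
    · rfl
    rcases mem_insert.1 ha with rfl | ha
    · rfl
    exact absurd ha (h.asy a b hb)
  have h0 : Comp N N N := ⟨fun _ => subset_rfl, fun _ => subset_rfl, hasy⟩
  obtain ⟨⟨B, C⟩, hp, hmin⟩ := Finset.exists_min_image
    (univ.filter (fun p : (V → Finset V) × (V → Finset V) => Comp N p.1 p.2))
    (fun p => kk N p.1 + kk N p.2) ⟨(N, N), by simpa using h0⟩
  have hBC : Comp N B C := (mem_filter.1 hp).2
  have hmin' : ∀ B' C', Comp N B' C' → kk N B + kk N C ≤ kk N B' + kk N C' := by
    intro B' C' h'
    exact hmin (B', C') (by simpa using h')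
  -- Hall conditions
  have H1 : ∀ a (S : Finset V), (∀ x ∈ S, x ∉ B a ∧ a ∉ C x) →
      S.card ≤ (cl N S \ cl N (B a)).card := by
    intro a S hS
    apply growth hN
    · rw [disjoint_left]
      intro x hx
      exact (hS x hx).1
    · have hc : Comp N (Function.update B a (B a ∪ S)) C := by
        refine ⟨?_, hBC.cC, ?_⟩
        · intro b
          by_cases hb : b = a
          · subst hb
            rw [Function.update_self]
            exact (hBC.cB b).trans subset_union_left
          · rw [Function.update_of_ne hb]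
            exact hBC.cB b
        · intro b x hx hbx
          by_cases hb : b = a
          · subst hb
            rw [Function.update_self] at hx
            rcases mem_union.1 hx with hx | hx
            · exact hBC.cBC b x hx hbx
            · exact absurd hbx (hS x hx).2
          · rw [Function.update_of_ne hb] at hx
            exact hBC.cBC b x hx hbx
      have h1 := hmin' _ _ hc
      have h2 := kk_update N B a (B a ∪ S)
      omega
  have H2 : ∀ x (S : Finset V), (∀ a ∈ S, x ∉ B a ∧ a ∉ C x) →
      S.card ≤ (cl N S \ cl N (C x)).card := by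
    intro x S hS
    apply growth hN
    · rw [disjoint_left]
      intro a ha
      exact (hS a ha).2
    · have hc : Comp N B (Function.update C x (C x ∪ S)) := by
        refine ⟨hBC.cB, ?_, ?_⟩
        · intro b
          by_cases hb : b = x
          · subst hb
            rw [Function.update_self]
            exact (hBC.cC b).trans subset_union_left
          · rw [Function.update_of_ne hb]
            exact hBC.cC b
        · intro a b hb hab
          by_cases hbx : b = x
          · subst hbx
            rw [Function.update_self] at hab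
            rcases mem_union.1 hab with hab | hab
            · exact hBC.cBC a b hb hab
            · exact absurd hb (hS a hab).1
          · rw [Function.update_of_ne hbx] at hab
            exact hBC.cBC a b hb hab
      have h1 := hmin' _ _ hc
      have h2 := kk_update N C x (C x ∪ S)
      omega
  set X : V → Finset V := fun a => univ.filter (fun x => ∀ s, a ∈ N s → x ∈ B s) with hXdef
  set Y : V → Finset V := fun a => univ.filter (fun x => ∀ s, a ∈ N s → x ∈ C s) with hYdef
  have hX : ∀ a x, x ∈ X a ↔ ∀ s, a ∈ N s → x ∈ B s := by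
    intro a x
    simp [hXdef]
  have hY : ∀ a x, x ∈ Y a ↔ ∀ s, a ∈ N s → x ∈ C s := by
    intro a x
    simp [hYdef]
  have hLK := LK hN H1 H2 hX hY hBC.cB hBC.cC hBC.cBC
  have hXr : ∀ a, a ∈ X a := fun a => (hX a a).2 fun s hs => hBC.cB s hs
  have hYr : ∀ a, a ∈ Y a := fun a => (hY a a).2 fun s hs => hBC.cC s hs
  have claim1 : ∀ a b, b ∈ cl N (X a) → a ∈ cl N (Y b) → a = b := by
    intro a b hb ha
    obtain ⟨x, hx, hbx⟩ := mem_cl.1 hb
    obtain ⟨y, hy, hay⟩ := mem_cl.1 ha
    have h1 := hBC.cBC y x ((hX a x).1 hx y hay) ((hY b y).1 hy x hbx)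
    subst h1
    have h2 := hBC.cBC a y ((hX a y).1 hx a (hN a)) (hBC.cC y hay)
    have h3 := hBC.cBC y b (hBC.cB y hbx) ((hY b y).1 hy b (hN b))
    exact h2.trans h3
  have hXY : Comp N (fun a => cl N (X a)) (fun a => cl N (Y a)) := by
    refine ⟨?_, ?_, claim1⟩
    · intro a z hz
      exact mem_cl.2 ⟨a, hXr a, hz⟩
    · intro a z hz
      exact mem_cl.2 ⟨a, hYr a, hz⟩
  have hm := hmin' _ _ hXY
  have hG : ∀ S : Finset V, (cl N (cl N S) \ cl N S).card ≤ (cl N S \ S).card := by
    intro S
    by_cases hS : cl N S ⊆ S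
    · have : cl N S = S := subset_antisymm hS (subset_cl hN S)
      rw [this, this]
    · exact (G h S hS).le
  have hclosed : ∀ a, cl N (X a) ⊆ X a ∧ cl N (Y a) ⊆ Y a := by
    intro a
    by_contra hcon
    have hXle : ∑ a, (cl N (cl N (X a)) \ cl N (X a)).card ≤ ∑ a, (cl N (X a) \ X a).card :=
      sum_le_sum fun b _ => hG _
    have hYle : ∑ a, (cl N (cl N (Y a)) \ cl N (Y a)).card ≤ ∑ a, (cl N (Y a) \ Y a).card :=
      sum_le_sum fun b _ => hG _
    have hstr : ∑ a, (cl N (cl N (X a)) \ cl N (X a)).card
        + ∑ a, (cl N (cl N (Y a)) \ cl N (Y a)).card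
        < ∑ a, (cl N (X a) \ X a).card + ∑ a, (cl N (Y a) \ Y a).card := by
      by_cases hXa : cl N (X a) ⊆ X a
      · have hYa : ¬ cl N (Y a) ⊆ Y a := fun h3 => hcon ⟨hXa, h3⟩
        exact add_lt_add_of_le_of_lt hXle
          (sum_lt_sum (fun b _ => hG _) ⟨a, mem_univ _, G h _ hYa⟩)
      · exact add_lt_add_of_lt_of_le
          (sum_lt_sum (fun b _ => hG _) ⟨a, mem_univ _, G h _ hXa⟩) hYle
    simp only [kk] at hm
    omega
  -- a minimal nonempty closed set
  obtain ⟨K, hK, hKmin⟩ := Finset.exists_min_image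
    (univ.filter (fun K : Finset V => K.Nonempty ∧ cl N K ⊆ K)) Finset.card
    ⟨univ, by simp [univ_nonempty]⟩
  obtain ⟨_, ⟨a, ha⟩, hKc⟩ := mem_filter.1 hK
  have hout : (out a).Nonempty := by
    rw [← card_pos]
    exact lt_of_le_of_lt (Nat.zero_le _) (h.bad a)
  obtain ⟨b, hb⟩ := hout
  have hbN : b ∈ N a := mem_insert_of_mem hb
  have hbK : b ∈ K := hKc (mem_cl.2 ⟨a, ha, hbN⟩)
  have hbX : b ∈ cl N (X a) := mem_cl.2 ⟨a, hXr a, hbN⟩
  have haY : a ∈ cl N (Y b) := by
    have h1 : K ∩ Y b ∈ univ.filter (fun K : Finset V => K.Nonempty ∧ cl N K ⊆ K) := by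
      refine mem_filter.2 ⟨mem_univ _, ⟨b, mem_inter.2 ⟨hbK, hYr b⟩⟩, ?_⟩
      intro z hz
      exact mem_inter.2 ⟨hKc (cl_mono inter_subset_left hz),
        (hclosed b).2 (cl_mono inter_subset_right hz)⟩
    have h2 := hKmin _ h1
    have h3 : K ∩ Y b = K := eq_of_subset_of_card_le inter_subset_left h2
    have h4 : a ∈ K ∩ Y b := by rw [h3]; exact ha
    exact subset_cl hN _ (mem_inter.1 h4).2
  have := claim1 a b hbX haY
  subst this
  exact h.irr a hb

/-- Seymour's second neighbourhood conjecture, for out-neighbour functions. -/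
theorem seymour [Nonempty V] (out : V → Finset V) (irr : ∀ v, v ∉ out v)
    (asy : ∀ u v, v ∈ out u → u ∉ out v) : ∃ v, (out v).card ≤ (n2 out v).card := by
  by_contra hcon
  push Not at hcon
  obtain ⟨o, ho⟩ := exists_CEm (out := out) ⟨irr, asy, hcon⟩
  exact no_CEm ho

end Vale.Agent.P038.H519
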